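import Mathlib
import Vale.Agent.Helper7.P302.Defs
import Vale.Agent.Helper7.P302.FracCert
import Vale.Agent.Helper24.P302.Defs5
import Vale.Agent.Helper24.P302.Assemble5
import Vale.Agent.Helper24.P302.LP5
import Vale.Agent.Helper24.P302.HD5
import Vale.Agent.Helper24.P302.OptGe5

/-!
# P302: the 58-item instance `inst5` in certificate form

For the instance `inst5` (58 rational sizes in `(0, 1]`):

* every packing into bins of capacity `1` uses at least `20` bins;
* the configuration LP has a feasible solution of total weight exactly `174373/9300`;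
* hence, with `OPT` and `LP` defined as infima, `OPT inst5 - LP inst5 ≥ 11627/9300 = 1.2502...`.

The first two statements do not involve the definitions of `OPT` and `LP` as infima.
-/

namespace Vale.Agent.Results.P302.Cert11627over9300

open Vale.Agent.Helper7.P302 Vale.Agent.Helper24.P302

theorem result :
    (∀ i : Fin 58, 0 < inst5 i ∧ inst5 i ≤ 1) ∧
    (∀ (m : ℕ) (f : Fin 58 → Fin m), IsPacking inst5 m f → 20 ≤ m) ∧
    (∃ (k : ℕ) (c : Fin k → ℚ → ℕ) (z : Fin k → ℝ),
      IsFracSol inst5 k c z ∧ ∑ j, z j = 174373 / 9300) ∧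
    (OPT inst5 : ℝ) - LP inst5 ≥ 11627 / 9300 := by
  have h := result_of5 lp_le5 (opt_ge5 hD5)
  refine ⟨h.1, opt_ge5 hD5, ?_, h.2⟩
  obtain ⟨k, c, z, hsol, hval⟩ := exists_fracSol_of_cert' 58 itemsL5 (by decide) 5040000 9300
    (by norm_num) (by norm_num) cert5 cert5_mem cert5_size cert5_cov
  have e : inst5 = (fun i : Fin 58 => (itemsL5.getD i.1 0 : ℚ) / ((5040000 : ℕ) : ℚ)) := by
    funext i
    unfold inst5
    norm_num
  refine ⟨k, c, z, ?_, ?_⟩
  · rw [e]
    exact hsol
  · rw [hval, cert5_total]
    norm_num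

end Vale.Agent.Results.P302.Cert11627over9300
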