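import Mathlib
import Vale.Agent.Helper7.P302.Defs
import Vale.Agent.Helper7.P302.Feasible
import Vale.Agent.Helper24.P302.Defs5
import Vale.Agent.Helper24.P302.Assemble5
import Vale.Agent.Helper24.P302.LP5
import Vale.Agent.Helper24.P302.HD5
import Vale.Agent.Helper24.P302.OptGe5

/-!
# P302: an explicit bin packing instance with `OPT - LP ≥ 11627/9300 > 6/5`

The instance `inst5` consists of 58 rational sizes in `(0, 1]` (the scaled sizes `itemsL5`
divided by the capacity `5040000`): 15 big items `3730000 - c` (`c` a slot of `slotsL`), 34 small
items `655000 + p` (`p` a positive of `posL5`) and 9 outer items.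

* `OPT inst5 ≥ 20`: a weight count.  Bigs weigh 27, smalls 4, the outer items
  9, 9, 9, 11, 11, 11, 11, 14, 16; every bin has weight at most 31, except a bin with one big and
  two smalls (weight 35), which forces `p + p' ≤ c`; at most 13 of the 15 slots can be filled by
  disjoint pairs of positives; the total weight is 642 > 31 * 19 + 4 * 13.
* `LP inst5 ≤ 174373/9300`: an explicit fractional solution with 44 configurations.

Hence `OPT inst5 - LP inst5 ≥ 20 - 174373/9300 = 11627/9300 = 1.25022...`.  The middle
statement records that the configuration LP has a feasible solution, so that `LP inst5` is the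
infimum of a nonempty set of nonnegative reals.
-/

namespace Vale.Agent.Results.P302.Gap11627over9300

open Vale.Agent.Helper7.P302 Vale.Agent.Helper24.P302

theorem result :
    (∀ i : Fin 58, 0 < inst5 i ∧ inst5 i ≤ 1) ∧
    (∃ (k : ℕ) (c : Fin k → ℚ → ℕ) (z : Fin k → ℝ), IsFracSol inst5 k c z) ∧
    (OPT inst5 : ℝ) - LP inst5 ≥ 11627 / 9300 := by
  have h := result_of5 lp_le5 (opt_ge5 hD5)
  exact ⟨h.1, exists_fracSol inst5 (fun i => (h.1 i).2), h.2⟩

end Vale.Agent.Results.P302.Gap11627over9300
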