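import Mathlib
import Vale.Agent.Helper7.P302.Defs
import Vale.Agent.Helper24.P302.Defs5
import Vale.Agent.Helper24.P302.Assemble5
import Vale.Agent.Helper24.P302.LP5
import Vale.Agent.Helper24.P302.HD5
import Vale.Agent.Helper24.P302.OptGe5
import Vale.Agent.Helper12.P302Plain

/-!
# P302: an explicit instance with `OPT ≥ 20` and `LP ≤ 174373/9300`, stated without infima

The instance has 58 items (bin capacity `1`): 15 big items `(3730 - c/1000)/5040` (`c` a slot),
34 small items `(655 + p/1000)/5040` (`p` a positive) and 9 outer items `o/5040`.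

The statement has three parts, written out with plain sums:

* every size lies in `(0, 1]`;
* every assignment of the items to `m` bins in which each bin has total size at most `1` has
  `m ≥ 20`, so the optimal number of bins is at least `20`;
* there is a feasible solution of the Gilmore-Gomory configuration LP (configurations `c j`, given
  by a multiplicity for every distinct size, of total size at most `1`; weights `z j ≥ 0`; every
  size covered at least as often as it occurs) of total weight exactly `174373/9300`, so the LP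
  value is at most `174373/9300`.

Hence `OPT - LP ≥ 20 - 174373/9300 = 11627/9300 = 1.25022...`.
-/

namespace Vale.Agent.Results.P302.Gap11627over9300Plain

open Finset

/-- The 15 slots. -/
def slots : List ℕ := [129, 134, 136, 145, 160, 162, 166, 187, 272, 276, 283, 418, 807, 810, 817]

/-- The 34 positives. -/
def positives : List ℕ := [1, 36, 41, 60, 68, 70, 70, 78, 80, 81, 82, 83, 84, 85, 86, 133, 136,
  138, 139, 141, 143, 144, 400, 403, 405, 406, 408, 410, 411, 817, 817, 817, 817, 817]

/-- The 9 outer items, in units of `1/5040`. -/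
def outer : List ℕ := [1427, 1443, 1461, 1660, 1677, 1710, 1726, 2186, 2429]

/-- The 58 item sizes: 15 big items, 34 small items, 9 outer items. -/
def sizes : List ℚ :=
  slots.map (fun c : ℕ => (3730 - (c : ℚ) / 1000) / 5040) ++
    positives.map (fun p : ℕ => (655 + (p : ℚ) / 1000) / 5040) ++
    outer.map (fun o : ℕ => (o : ℚ) / 5040)

/-- The instance: item `i` has size `a i`. -/
def a (i : Fin 58) : ℚ := sizes.getD i.1 0

theorem sizes_eq : sizes =
    Vale.Agent.Helper24.P302.itemsL5.map (fun s : ℕ => (s : ℚ) / 5040000) := by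
  norm_num [sizes, slots, positives, outer, Vale.Agent.Helper24.P302.itemsL5,
    Vale.Agent.Helper7.P302.slotsL, Vale.Agent.Helper24.P302.posL5]

theorem a_eq : a = Vale.Agent.Helper24.P302.inst5 := by
  funext i
  unfold a Vale.Agent.Helper24.P302.inst5
  rw [sizes_eq]
  have h0 : (0 : ℚ) = (fun s : ℕ => (s : ℚ) / 5040000) 0 := by norm_num
  rw [h0, List.getD_map]

/-- Every packing of the instance needs at least `20` bins, and the configuration LP has a
feasible solution of value `174373/9300`; so `OPT - LP ≥ 11627/9300 > 6/5`. -/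
theorem result :
    (∀ i : Fin 58, 0 < a i ∧ a i ≤ 1) ∧
    (∀ (m : ℕ) (f : Fin 58 → Fin m),
      (∀ b : Fin m, ∑ i ∈ univ.filter (fun i => f i = b), a i ≤ 1) → 20 ≤ m) ∧
    (∃ (k : ℕ) (c : Fin k → ℚ → ℕ) (z : Fin k → ℝ),
      (∀ j : Fin k, (∀ σ : ℚ, σ ∉ univ.image a → c j σ = 0) ∧
        ∑ σ ∈ univ.image a, σ * (c j σ : ℚ) ≤ 1 ∧ 0 ≤ z j) ∧
      (∀ σ ∈ univ.image a,
        ((univ.filter (fun i => a i = σ)).card : ℝ) ≤ ∑ j : Fin k, (c j σ : ℝ) * z j) ∧
      ∑ j : Fin k, z j = 174373 / 9300) := by
  rw [a_eq]
  refine ⟨Vale.Agent.Helper24.P302.inst5_pos_le, ?_, ?_⟩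
  · intro m f hf
    exact Vale.Agent.Helper24.P302.opt_ge5 Vale.Agent.Helper24.P302.hD5 m f hf
  · obtain ⟨k, c, z, hsol, hval⟩ :=
      Vale.Agent.Helper12.P302Plain.fracSol_of_cert' 58 Vale.Agent.Helper24.P302.itemsL5
        (by decide) 5040000 9300 (by norm_num) (by norm_num) Vale.Agent.Helper24.P302.cert5
        Vale.Agent.Helper24.P302.cert5_mem Vale.Agent.Helper24.P302.cert5_size
        Vale.Agent.Helper24.P302.cert5_cov
    rw [Vale.Agent.Helper24.P302.cert5_total] at hval
    have e : Vale.Agent.Helper24.P302.inst5 =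
        (fun i : Fin 58 => (Vale.Agent.Helper24.P302.itemsL5.getD i.1 0 : ℚ) /
          ((5040000 : ℕ) : ℚ)) := by
      funext i
      unfold Vale.Agent.Helper24.P302.inst5
      norm_num
    rw [e]
    refine ⟨k, c, z, fun j => ⟨(hsol.1 j).1.1, (hsol.1 j).1.2, (hsol.1 j).2⟩, hsol.2, ?_⟩
    rw [hval]
    norm_num

end Vale.Agent.Results.P302.Gap11627over9300Plain
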