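import Mathlib
import Vale.Agent.Helper7.P302.Defs
import Vale.Agent.Helper7.P302.Feasible
import Vale.Agent.Helper24.P302.Defs4
import Vale.Agent.Helper24.P302.Assemble4
import Vale.Agent.Helper24.P302.LP4
import Vale.Agent.Helper24.P302.HD4
import Vale.Agent.Helper24.P302.OptGe4

/-!
# P302: an explicit bin packing instance with `OPT - LP ≥ 5551/4500 > 6/5`

The instance `inst4` consists of 55 rational sizes in `(0, 1]` (the scaled sizes `itemsL4`
divided by the capacity `5040000`): 15 big items `3750000 - c` (`c` a slot of `slotsL`), 33 small
items `645000 + p` (`p` a positive of `posL4`) and 7 outer items.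

* `OPT inst4 ≥ 19`: a weight count.  Bigs weigh 27, smalls 4, the outer items
  9, 9, 9, 11, 11, 11, 14; every bin has weight at most 31, except a bin with one big and
  two smalls (weight 35), which forces `p + p' ≤ c`; at most 13 of the 15 slots can be filled by
  disjoint pairs of positives; the total weight is 611 > 31 * 18 + 4 * 13.
* `LP inst4 ≤ 79949/4500`: an explicit fractional solution with 42 configurations.

Hence `OPT inst4 - LP inst4 ≥ 19 - 79949/4500 = 5551/4500 = 1.23356...`.  The middle
statement records that the configuration LP has a feasible solution, so that `LP inst4` is the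
infimum of a nonempty set of nonnegative reals.
-/

namespace Vale.Agent.Results.P302.Gap5551over4500

open Vale.Agent.Helper7.P302 Vale.Agent.Helper24.P302

theorem result :
    (∀ i : Fin 55, 0 < inst4 i ∧ inst4 i ≤ 1) ∧
    (∃ (k : ℕ) (c : Fin k → ℚ → ℕ) (z : Fin k → ℝ), IsFracSol inst4 k c z) ∧
    (OPT inst4 : ℝ) - LP inst4 ≥ 5551 / 4500 := by
  have h := result_of4 lp_le4 (opt_ge4 hD4)
  exact ⟨h.1, exists_fracSol inst4 (fun i => (h.1 i).2), h.2⟩

end Vale.Agent.Results.P302.Gap5551over4500
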